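import Vale.Agent.P216.Ch2.Ns2
import Vale.Agent.P216.Ch2.H83.Les
import Vale.Agent.P216.Ch2.H901.Fam

/-!
# P216-C, block [RELH]: relative homeomorphisms

`RelH X A Y B f`: `X`, `A`, `B` compact, `f` uniformly continuous on `X`, `f (A) ⊆ B`, and
`f : X - A → Y - B` bijective.

* `RelH.bij`: `f^* : H^q(Y, B) → H^q(X, A)` is bijective (strong excision for relative
  homeomorphisms).
* `isoRelH`: the family version, natural in the level.
-/

set_option linter.all false

open Set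

namespace Vale.Agent.P216.Ch2.C313

open Vale.Agent.P216 Vale.Agent.P216.Ch2
open Vale.Agent.P216.C313

open Vale.Agent.P216.AS Vale.Agent.P216.Ch2.AS Vale.Agent.P216.H901 Vale.Agent.P216.Ch2.H901 Vale.Agent.P216.H83 Vale.Agent.P216.Ch2.H83

section Def

variable {E E' : Type} [MetricSpace E] [MetricSpace E']

/-- A relative homeomorphism of compact pairs. -/
structure RelH (X A : Set E) (Y B : Set E') (f : E → E') : Prop where
  cX : IsCompact X
  cA : IsCompact A
  cB : IsCompact B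
  AX : A ⊆ X
  BY : B ⊆ Y
  map : IsMap (tr E) (tr E') X Y f
  sub : MapsTo f A B
  off : ∀ x ∈ X, x ∉ A → f x ∉ B
  inj : ∀ x ∈ X, x ∉ A → ∀ x' ∈ X, x' ∉ A → f x = f x' → x = x'
  surj : ∀ y ∈ Y, y ∉ B → ∃ x ∈ X, f x = y

theorem isMap_of {X : Set E} {Y : Set E'} {f : E → E'} (hX : IsCompact X) (hf : ContinuousOn f X)
    (hm : MapsTo f X Y) : IsMap (tr E) (tr E') X Y f :=
  IsMap.of_continuousOn hX hf hm fun i => i.elim

theorem isMap_cont {X : Set E} {Y : Set E'} {f : E → E'} (h : IsMap (tr E) (tr E') X Y f) :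
    ContinuousOn f X := by
  rw [Metric.continuousOn_iff]
  intro x hx ε hε
  obtain ⟨δ, hδ, hu⟩ := h.uc ε hε
  exact ⟨δ, hδ, fun y hy hxy => hu y hy x hx hxy⟩

namespace RelH

variable {X A : Set E} {Y B : Set E'} {f : E → E'} (h : RelH X A Y B f)

include h

theorem far_compact (δ : ℝ) : IsCompact {x | x ∈ X ∧ ∀ a ∈ A, δ ≤ dist x a} := by
  have : {x | x ∈ X ∧ ∀ a ∈ A, δ ≤ dist x a} = X ∩ ⋂ a ∈ A, {x | δ ≤ dist x a} := by
    ext x; simp
  rw [this]
  exact h.cX.inter_right (isClosed_biInter fun a _ => isClosed_le continuous_const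
    (continuous_id.dist continuous_const))

/-- Away from `A` the inverse is uniformly continuous. -/
theorem sep {δ ε : ℝ} (hδ : 0 < δ) (hε : 0 < ε) : ∃ η > 0, ∀ x ∈ X, (∀ a ∈ A, δ ≤ dist x a) →
    ∀ x' ∈ X, dist (f x) (f x') < η → dist x x' < ε := by
  set K : Set (E × E) := ({x | x ∈ X ∧ ∀ a ∈ A, δ ≤ dist x a} ×ˢ X) ∩ {p | ε ≤ dist p.1 p.2}
    with hK
  have cK : IsCompact K := ((h.far_compact δ).prod h.cX).inter_right
    (isClosed_le continuous_const (continuous_fst.dist continuous_snd))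
  have hf := isMap_cont h.map
  have hc1 : ContinuousOn (fun p : E × E => f p.1) K :=
    ContinuousOn.comp (t := X) hf continuousOn_fst fun p hp => hp.1.1.1
  have hc2 : ContinuousOn (fun p : E × E => f p.2) K :=
    ContinuousOn.comp (t := X) hf continuousOn_snd fun p hp => hp.1.2
  have hc : ContinuousOn (fun p : E × E => dist (f p.1) (f p.2)) K := continuous_dist.comp_continuousOn (hc1.prodMk hc2)
  rcases K.eq_empty_or_nonempty with he | hne
  · refine ⟨1, one_pos, fun x hx hxa x' hx' _ => ?_⟩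
    by_contra hcon
    have : (x, x') ∈ K := ⟨⟨⟨hx, hxa⟩, hx'⟩, not_lt.1 hcon⟩
    rw [he] at this
    exact this
  · obtain ⟨⟨x₀, x₀'⟩, h0, hmin⟩ := cK.exists_isMinOn hne hc
    refine ⟨dist (f x₀) (f x₀'), ?_, fun x hx hxa x' hx' hd => ?_⟩
    · apply dist_pos.2
      intro he
      obtain ⟨⟨⟨h1, h2⟩, h3⟩, h4⟩ := h0
      have h4' : ε ≤ dist x₀ x₀' := h4
      have n1 : x₀ ∉ A := fun ha => by
        have := h2 x₀ ha
        rw [dist_self] at this
        linarith
      by_cases n2 : x₀' ∈ A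
      · exact h.off x₀ h1 n1 (he ▸ h.sub n2)
      · rw [h.inj x₀ h1 n1 x₀' h3 n2 he, dist_self] at h4'
        linarith
    · by_contra hcon
      have : (x, x') ∈ K := ⟨⟨⟨hx, hxa⟩, hx'⟩, not_lt.1 hcon⟩
      exact absurd (hmin this) (not_le.2 hd)

/-- Away from `A` the image is away from `B`. -/
theorem farB {δ : ℝ} (hδ : 0 < δ) : ∃ η > 0, ∀ x ∈ X, (∀ a ∈ A, δ ≤ dist x a) →
    ∀ b ∈ B, η ≤ dist (f x) b := by
  set K : Set (E × E') := {x | x ∈ X ∧ ∀ a ∈ A, δ ≤ dist x a} ×ˢ B with hK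
  have cK : IsCompact K := (h.far_compact δ).prod h.cB
  have hf := isMap_cont h.map
  have hc1 : ContinuousOn (fun p : E × E' => f p.1) K :=
    ContinuousOn.comp (t := X) hf continuousOn_fst fun p hp => hp.1.1
  have hc : ContinuousOn (fun p : E × E' => dist (f p.1) p.2) K :=
    continuous_dist.comp_continuousOn (hc1.prodMk continuousOn_snd)
  rcases K.eq_empty_or_nonempty with he | hne
  · refine ⟨1, one_pos, fun x hx hxa b hb => ?_⟩
    have : (x, b) ∈ K := ⟨⟨hx, hxa⟩, hb⟩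
    rw [he] at this
    exact absurd this (notMem_empty _)
  · obtain ⟨⟨x₀, b₀⟩, h0, hmin⟩ := cK.exists_isMinOn hne hc
    refine ⟨dist (f x₀) b₀, ?_, fun x hx hxa b hb => hmin (a := (x, b)) ⟨⟨hx, hxa⟩, hb⟩⟩
    apply dist_pos.2
    intro he
    obtain ⟨⟨h1, h2⟩, h3⟩ := h0
    refine h.off x₀ h1 (fun ha => ?_) (by rw [show f x₀ = b₀ from he]; exact h3)
    have := h2 x₀ ha
    rw [dist_self] at this
    linarith

theorem preB {x : E} (hx : x ∈ X) (hB : f x ∉ B) : x ∉ A := fun ha => hB (h.sub ha)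

end RelH

end Def

section Main

variable {E E' : Type} [MetricSpace E] [MetricSpace E'] {k : Type} [Field k]
  {X A : Set E} {Y B : Set E'} {f : E → E'}

open Classical in
/-- Transport of a cochain with support away from `A`. -/
noncomputable def push (X A : Set E) (B : Set E') (f : E → E') (δ : ℝ) {n : ℕ}
    (c : (Fin n → E) → k) (y : Fin n → E') : k :=
  if h : (∃ i, ∃ x ∈ X, f x = y i ∧ ∀ a ∈ A, δ ≤ dist x a) ∧ (∀ i, ∃ x ∈ X, f x = y i) then
    c fun i => (h.2 i).choose else 0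

variable (h : RelH X A Y B f)

include h

/-- Values of `push` at the images of tuples. -/
theorem push_image {δ : ℝ} (hδ : 0 < δ) {n : ℕ} (c : (Fin n → E) → k) {x : Fin n → E}
    (hx : ∀ i, x i ∈ X) (hA : ∀ i, x i ∉ A) (hi : ∃ i, ∀ a ∈ A, δ ≤ dist (x i) a) :
    push X A B f δ c (f ∘ x) = c x := by
  have h1 : (∃ i, ∃ x' ∈ X, f x' = (f ∘ x) i ∧ ∀ a ∈ A, δ ≤ dist x' a) ∧
      (∀ i, ∃ x' ∈ X, f x' = (f ∘ x) i) :=
    ⟨hi.imp fun i hi => ⟨x i, hx i, rfl, hi⟩, fun i => ⟨x i, hx i, rfl⟩⟩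
  rw [push, dif_pos h1]
  congr 1
  funext i
  obtain ⟨h2, h3⟩ := (h1.2 i).choose_spec
  refine h.inj _ h2 (fun ha => ?_) _ (hx i) (hA i) h3
  exact h.off _ (hx i) (hA i) (by
    have := h.sub ha
    rwa [h3] at this)

theorem push_zero {δ : ℝ} {n : ℕ} (c : (Fin n → E) → k) {y : Fin n → E'}
    (hy : ∀ i, ∀ x ∈ X, f x = y i → ∃ a ∈ A, dist x a < δ) : push X A B f δ c y = 0 := by
  rw [push, dif_neg]
  rintro ⟨⟨i, x, hx, hxy, hxa⟩, -⟩
  obtain ⟨a, ha, hd⟩ := hy i x hx hxy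
  exact absurd (hxa a ha) (not_le.2 hd)

/-- Pulling back the germs near `B`. -/
theorem vanN_pb {n : ℕ} {c : (Fin n → E') → k} (hc : VanN Y B c) : VanN X A (P265.AS.pb f c) := by
  obtain ⟨ε, hε, hc⟩ := hc
  obtain ⟨δ, hδ, hu⟩ := h.map.uc ε hε
  refine ⟨δ, hδ, fun x hx => hc _ ⟨⟨fun i => h.map.mapsX (hx.1.1 i), fun i j =>
    hu _ (hx.1.1 i) _ (hx.1.1 j) (hx.1.2 i j)⟩, fun i => ?_⟩⟩
  obtain ⟨a, ha, hd⟩ := hx.2 i
  exact ⟨f a, h.sub ha, hu _ (hx.1.1 i) _ (h.AX ha) hd⟩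

theorem mor : IsMor (Zn (tr E') (on k) Y B) (Zr (tr E') (on k) Y Y) (Zn (tr E) (on k) X A)
    (Zr (tr E) (on k) X X) (pbK k f) :=
  IsMor.of_comm (fun hc => ⟨fun i => i.elim, vanN_pb h hc.2⟩)
    (fun hc => ⟨fun i => i.elim, h.map.pb_van le_rfl h.map.mapsX hc.2⟩) (pbK_d f)

/-- If `f^* c` vanishes on the small tuples, so does `c`. -/
theorem chain_inj {n : ℕ} {c : (Fin n → E') → k} (hn : 0 < n) (hc : VanN Y B c)
    (hv : Van X (P265.AS.pb f c)) : Van Y c := by
  obtain ⟨ε, hε, hc⟩ := hc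
  obtain ⟨ε', hε', hv⟩ := hv
  obtain ⟨δ, hδ, hu⟩ := h.map.uc ε hε
  obtain ⟨η, hη, hs⟩ := h.sep hδ (half_pos hε')
  obtain ⟨η', hη', hb⟩ := h.farB hδ
  refine ⟨min ε (min η η'), lt_min hε (lt_min hη hη'), fun y hy => ?_⟩
  have d0 : ∀ i j, dist (y i) (y j) < ε := fun i j => (hy.2 i j).trans_le (min_le_left _ _)
  have d1 : ∀ i j, dist (y i) (y j) < η := fun i j =>
    (hy.2 i j).trans_le ((min_le_right _ _).trans (min_le_left _ _))
  have d2 : ∀ i j, dist (y i) (y j) < η' := fun i j =>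
    (hy.2 i j).trans_le ((min_le_right _ _).trans (min_le_right _ _))
  by_cases hn : ∀ i, ∃ b ∈ B, dist (y i) b < ε
  · exact hc y ⟨⟨hy.1, d0⟩, hn⟩
  · push Not at hn
    obtain ⟨i, hi⟩ := hn
    have hiB : y i ∉ B := fun hb' => by
      have := hi _ hb'
      rw [dist_self] at this
      linarith
    obtain ⟨xi, hxi, hxiy⟩ := h.surj _ (hy.1 i) hiB
    have far : ∀ a ∈ A, δ ≤ dist xi a := fun a ha => by
      by_contra hcon
      have h1 := hu _ hxi _ (h.AX ha) (not_le.1 hcon)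
      rw [hxiy] at h1
      exact absurd (hi _ (h.sub ha)) (not_le.2 h1)
    have hall : ∀ j, y j ∉ B := fun j hj => by
      have h1 := hb _ hxi far _ hj
      rw [hxiy] at h1
      exact absurd h1 (not_le.2 (d2 i j))
    choose x hx hxy using fun j => h.surj _ (hy.1 j) (hall j)
    have hyx : y = f ∘ x := funext fun j => (hxy j).symm
    have hd : ∀ j, dist xi (x j) < ε' / 2 := fun j => by
      refine hs xi hxi far _ (hx j) ?_
      rw [hxiy, hxy]
      exact d1 i j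
    have h5 := hv x ⟨hx, fun j l => by
      have h1 := dist_triangle_left (x j) (x l) xi
      have h2 := hd j
      have h3 := hd l
      linarith⟩
    rw [hyx]
    exact h5

/-- Every germ away from `A` is the pull back of a germ away from `B`. -/
theorem chain_surj {n : ℕ} {c : (Fin n → E) → k} (hc : VanN X A c) :
    ∃ c' : (Fin n → E') → k, VanN Y B c' ∧ Van X (c - P265.AS.pb f c') := by
  obtain ⟨ε, hε, hc⟩ := hc
  obtain ⟨η', hη', hb⟩ := h.farB (half_pos hε)
  refine ⟨push X A B f (ε / 2) c, ⟨η', hη', fun y hy => ?_⟩, ε / 2, half_pos hε, fun x hx => ?_⟩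
  · refine push_zero h c fun i x hx hxy => ?_
    by_contra hcon
    push Not at hcon
    obtain ⟨b, hbB, hd⟩ := hy.2 i
    have h1 := hb x hx hcon b hbB
    rw [hxy] at h1
    exact absurd h1 (not_le.2 hd)
  · rw [Pi.sub_apply, sub_eq_zero, P265.AS.pb_apply]
    by_cases hi : ∃ i, ∀ a ∈ A, ε / 2 ≤ dist (x i) a
    · refine (push_image h (half_pos hε) c hx.1 (fun j hj => ?_) hi).symm
      obtain ⟨i, hi⟩ := hi
      exact absurd (hi _ hj) (not_le.2 (hx.2 i j))
    · push Not at hi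
      rw [hc x ⟨hx.mono le_rfl (by linarith), fun i => ?_⟩]
      · refine (push_zero h c fun i x' hx' hxx => ?_).symm
        obtain ⟨a, ha, hd⟩ := hi i
        by_contra hcon
        push Not at hcon
        have n1 : x' ∉ A := fun h' => by
          have := hcon _ h'
          rw [dist_self] at this
          linarith
        have n2 : x i ∉ A := fun h' => h.off _ hx' n1 (by rw [hxx]; exact h.sub h')
        have e := h.inj _ hx' n1 _ (hx.1 i) n2 hxx
        rw [e] at hcon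
        exact absurd (hcon a ha) (not_le.2 hd)
      · obtain ⟨a, ha, hd⟩ := hi i
        exact ⟨a, ha, by linarith⟩

/-- **Strong excision for relative homeomorphisms.** -/
theorem RelH.bij (h2 : Ok k) (n : ℕ) :
    Function.Bijective (pullR (on k) h.map h.AX h.sub n) := by
  have lX : Zr (tr E) (on k) X X ≤ Zn (tr E) (on k) X A := by
    rw [Zr_self_eq_Zn]; exact Zn_anti le_rfl h.AX
  have lY : Zr (tr E') (on k) Y Y ≤ Zn (tr E') (on k) Y B := by
    rw [Zr_self_eq_Zn]; exact Zn_anti le_rfl h.BY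
  have tX := Hinc_bijective_of_top (T := Zr (tr E) (on k) X X) (S := Zn (tr E) (on k) X A)
    (S' := Zr (tr E) (on k) X A) lX (Zn_le_Zr h.AX)
    (fun m => taut (tw_tr h2 X) (inv_tr X) h.cA h.AX (inv_tr A) m) n
  have tY := Hinc_bijective_of_top (T := Zr (tr E') (on k) Y Y) (S := Zn (tr E') (on k) Y B)
    (S' := Zr (tr E') (on k) Y B) lY (Zn_le_Zr h.BY)
    (fun m => taut (tw_tr h2 Y) (inv_tr Y) h.cB h.BY (inv_tr B) m) n
  have mb := Hmap_bijective (n := n) (mor (k := k) h)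
    (fun {m x} hx hv => ⟨fun i => i.elim, chain_inj h (Nat.succ_pos m) hx.2 hv.2⟩)
    (fun {m y} hy => by
      obtain ⟨c', h1, h3⟩ := chain_surj h hy.2
      exact ⟨c', ⟨fun i => i.elim, h1⟩, fun i => i.elim, h3⟩)
  have e : (pullR (on k) h.map h.AX h.sub n : _ → Hr (tr E) (on k) X A n) ∘
      (Hinc (Zn_le_Zr h.BY) le_rfl n : _ → Hr (tr E') (on k) Y B n) =
      (Hinc (Zn_le_Zr h.AX) le_rfl n : _ → Hr (tr E) (on k) X A n) ∘ Hmap (mor (k := k) h) n := by
    funext x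
    obtain ⟨x, hx, rfl⟩ := H.exists_mk x
    rfl
  have b : Function.Bijective ((pullR (on k) h.map h.AX h.sub n : _ → Hr (tr E) (on k) X A n) ∘
      (Hinc (Zn_le_Zr h.BY) le_rfl n : _ → Hr (tr E') (on k) Y B n)) := by
    rw [e]
    exact tX.comp mb
  exact (Function.Bijective.of_comp_iff _ tY).1 b

end Main

/-! ### Families -/

section Fam

variable {E E' : Type} [MetricSpace E] [MetricSpace E'] {k : Type} [Field k]
  {X A : ℝ → Set E} {Y B : ℝ → Set E'} {f : E → E'}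

/-- **Relative homeomorphisms of families.** -/
noncomputable def isoRelH (h2 : Ok k) (hX : MonoP X) (hA : MonoP A) (hY : MonoP Y)
    (hB : MonoP B) (h : ∀ t, 0 < t → RelH (X t) (A t) (Y t) (B t) f) (q : ℕ) :
    PMIso (pmP k hY hB q) (pmP k hX hA q) where
  e t ht := LinearEquiv.ofBijective _ ((h t ht).bij h2 q)
  nat s t hs ht hst x := by
    obtain ⟨x, hx, rfl⟩ := H.exists_mk x
    rfl

end Fam

end Vale.Agent.P216.Ch2.C313
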